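import Vale.Agent.P355.H138.TB.ABC.D

namespace Vale.Agent.P355.H138.TB.ABC

open Vale.Agent.P355 Vale.Agent.P355.H147 Vale.Agent.P355.H998.E

theorem c0 : CX 5 0 0 D cls mv 0 (Nat.add 0 2) := CX.ck 0 2 (by decide +kernel)

theorem c2 : CX 5 0 0 D cls mv 2 (Nat.add 2 2) := CX.ck 2 2 (by decide +kernel)

theorem c4 : CX 5 0 0 D cls mv 4 (Nat.add 4 3) := CX.ck 4 3 (by decide +kernel)

theorem c7 : CX 5 0 0 D cls mv 7 (Nat.add 7 3) := CX.ck 7 3 (by decide +kernel)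

theorem c10 : CX 5 0 0 D cls mv 10 (Nat.add 10 3) := CX.ck 10 3 (by decide +kernel)

theorem c13 : CX 5 0 0 D cls mv 13 (Nat.add 13 4) := CX.ck 13 4 (by decide +kernel)

theorem c17 : CX 5 0 0 D cls mv 17 (Nat.add 17 5) := CX.ck 17 5 (by decide +kernel)

theorem c22 : CX 5 0 0 D cls mv 22 (Nat.add 22 8) := CX.ck 22 8 (by decide +kernel)

theorem c30 : CX 5 0 0 D cls mv 30 (Nat.add 30 8) := CX.ck 30 8 (by decide +kernel)

theorem cm0 : CX 5 0 0 D cls mv 0 38 := (((c0).trans (c2)).trans ((c4).trans (c7))).trans (((c10).trans (c13)).trans ((c17).trans ((c22).trans (c30))))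

end Vale.Agent.P355.H138.TB.ABC
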